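import Vale.Agent.P344B.Main

namespace Vale.Agent.Results.P344.BoundedHeight

open Vale.Agent.P344B

theorem result :
    (∀ n : ℕ, 0 < n → ∀ (gs : List (Gate ℂ)) (out : Fin n → ℕ), Computes n gs out →
      ∀ (good : ℂ → Prop) [DecidablePred good], (∀ c, good c → IsAlgebraic ℚ c) →
        ((n : ℝ) - (gs.map (Gate.free good)).sum) / 2 * Real.logb 2 (n + 1) - n ≤
          (gs.map (Gate.cost good)).sum) ∧
    (∀ h ε : ℝ, 0 ≤ h → ∀ n : ℕ, 0 < n → ∀ (gs : List (Gate ℂ)) (out : Fin n → ℕ),
      Computes n gs out →
      ∀ (good : ℂ → Prop) [DecidablePred good],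
        (∀ c, good c → IsAlgebraic ℚ c ∧ archHeight c ≤ h) →
        ((gs.map (Gate.free good)).sum : ℝ) ≤ (1 - ε) * n →
          (ε / 2 * n * Real.logb 2 (n + 1) - n) / (1 + h) ≤ gs.length) := by
  refine ⟨fun n hn gs out hC good _ hgood => tradeoff n hn gs out hC good hgood, ?_⟩
  intro h ε hh n hn gs out hC good _ hgood hfree
  have h1 := tradeoff n hn gs out hC good (fun c hc => (hgood c hc).1)
  have h2 : (gs.map (Gate.cost good)).sum ≤ (1 + h) * gs.length := by
    clear h1 hC hfree
    induction gs with
    | nil => simp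
    | cons g gs ih =>
      rw [List.map_cons, List.sum_cons, List.length_cons]
      push_cast
      have h3 : g.cost good ≤ 1 + h := by
        cases g with
        | add i j => simpa [Gate.cost] using hh
        | sub i j => simpa [Gate.cost] using hh
        | scale c i =>
          simp only [Gate.cost]
          split_ifs with hc
          · linarith [(hgood c hc).2]
          · linarith
      linarith
  have hlog : 0 ≤ Real.logb 2 ((n : ℝ) + 1) :=
    Real.logb_nonneg (by norm_num) (by linarith [(Nat.cast_nonneg n : (0 : ℝ) ≤ n)])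
  have h4 : ε / 2 * n * Real.logb 2 (n + 1) ≤
      ((n : ℝ) - (gs.map (Gate.free good)).sum) / 2 * Real.logb 2 (n + 1) := by
    refine mul_le_mul_of_nonneg_right ?_ hlog
    linarith
  rw [div_le_iff₀ (by linarith)]
  linarith

end Vale.Agent.Results.P344.BoundedHeight
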