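import Vale.Agent.P344.CT
import Vale.Agent.P344.Blue
import Vale.Agent.P344.Numer
import Vale.Agent.P344.Adds
import Vale.Agent.P344.Irr
import Vale.Agent.P344.Help

namespace Vale.P344

theorem adds_add_irr_le (C : List Gate) : adds C + irr C ≤ C.length := by
  induction C with
  | nil => simp [adds, irr]
  | cons g C ih =>
    cases g with
    | add i j => simp only [adds, irr, List.length_cons]; omega
    | sub i j => simp only [adds, irr, List.length_cons]; omega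
    | smul c i => simp only [adds, irr, List.length_cons]; split_ifs <;> omega

theorem L_rec_mul (q m : ℕ) (hq : 0 < q) (hm : 0 < m) : L (q * m) ≤ q * L m + m * L q + q * m :=
  L_le (Nat.mul_pos hq hm) (dc_mul hq hm (dc_L hq) (dc_L hm))

theorem L_rec_bluestein (n N : ℕ) (hn : 0 < n) (hN : 2 * n ≤ N + 1) :
    L n ≤ 2 * L N + N + 2 * n :=
  L_le hn (dc_bluestein hn hN (dc_L (by omega)))

theorem L_asymp (q : ℕ) (hq : 2 ≤ q) (ε : ℝ) (hε : 0 < ε) :
    ∃ n₀ : ℕ, ∀ n ≥ n₀, (L n : ℝ) ≤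
      (8 * (((L q : ℝ) + q) / (q * Real.logb 2 q)) + ε) * (n * Real.logb 2 n) :=
  asymp L (L_le (by norm_num) dc_two) L_rec_mul L_rec_bluestein q hq ε hε

end Vale.P344

namespace Vale.Agent.Results.P344.DFTCircuits

open Vale.P344

theorem result :
    ((∃ c : ℝ, 0 < c ∧ ∃ n₀ : ℕ, ∀ n ≥ n₀, c * (n * Real.logb 2 n) ≤ L n) ↔
      (∃ c : ℝ, 0 < c ∧ ∀ n₀ : ℕ, ∃ n ≥ n₀, c * (n * Real.logb 2 n) ≤ L n)) ∧
    (∀ q : ℕ, 2 ≤ q → ∀ ε : ℝ, 0 < ε → ∃ n₀ : ℕ, ∀ n ≥ n₀, (L n : ℝ) ≤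
      (8 * (((L q : ℝ) + q) / (q * Real.logb 2 q)) + ε) * (n * Real.logb 2 n)) ∧
    (∀ n : ℕ, 2 ≤ n → 3 * n ≤ L n + n.divisors.card + 2) ∧
    (∀ n : ℕ, 1 ≤ n → ∀ C : List Gate, Computes n C →
      2 * n ≤ adds C + 2 ∧ n ≤ irr C + n.divisors.card ∧
      ∀ (σ : ℂ →+* ℂ) (H : Finset ℕ),
        ((n : ℝ) - H.card) / 2 * Real.logb 2 n - n / 2 ≤ costOutside σ C H) := by
  refine ⟨dichotomy L L_asymp, L_asymp, ?_, ?_⟩
  · intro n hn
    obtain ⟨C, hC, hlen⟩ := exists_computes_length n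
    have h1 := adds_ge (by omega) hC
    have h2 := irr_ge (by omega) hC
    have h3 := adds_add_irr_le C
    omega
  · intro n hn C hC
    have h1 := adds_ge (by omega) hC
    exact ⟨by omega, irr_ge (by omega) hC, fun σ H => help_gates (by omega) hC σ H⟩

end Vale.Agent.Results.P344.DFTCircuits
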